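import Vale.Agent.P295.Combinatorial
import Vale.Agent.P295.Nontrivial

/-!
The stable coordinate conjecture is false.
-/

namespace Vale.Agent.Results.P295.StableCoordinate

open MvPolynomial Vale.Agent.P295

/-- There are a number of variables `n` (between 4 and 7) and a stable coordinate of
`ℂ[x₁, …, xₙ]` that is not a coordinate of `ℂ[x₁, …, xₙ]`. -/
theorem result :
    ∃ (n m : ℕ) (f : MvPolynomial (Fin n) ℂ), 4 ≤ n ∧ n ≤ 7 ∧ 1 ≤ m ∧
      (∃ (e : MvPolynomial (Fin (n + m)) ℂ ≃ₐ[ℂ] MvPolynomial (Fin (n + m)) ℂ) (i : Fin (n + m)),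
        e (rename (Fin.castAdd m) f) = X i) ∧
      ¬ ∃ (e : MvPolynomial (Fin n) ℂ ≃ₐ[ℂ] MvPolynomial (Fin n) ℂ) (i : Fin n), e f = X i := by
  obtain ⟨E, hE⟩ := exists_equiv
  exact exists_stable_noncoordinate xB E hE no_coordinate_iso

end Vale.Agent.Results.P295.StableCoordinate
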